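import Vale.Agent.P263.FR.Sus

/-!
# P263, V5: the straight line from the identity to the signed cyclic shift

* `continuous_fam` : families of homeomorphisms act continuously on the one point compactification.
* `shA n t` : the linear map `(1 - t) + t R` of `ℝ^(n+1)`, where `R (s, w) = (w, (-1)ⁿ s)`.
* `shB n t` : its inverse.
-/

open Filter OnePoint Topology

namespace Vale.Agent.P263.FR

/-- families of homeomorphisms act continuously on the one point compactification -/
theorem continuous_fam {X : Type*} [TopologicalSpace X] {A B : unitInterval × X → X}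
    (hA : Continuous A) (hB : Continuous B) (hcl : ∀ C : Set X, IsCompact C → IsClosed C)
    (h : ∀ t x, B (t, A (t, x)) = x) :
    Continuous fun q : unitInterval × OnePoint X => OnePoint.map (fun x => A (q.1, x)) q.2 := by
  rw [continuous_iff_continuousAt]
  rintro ⟨t, z⟩
  induction z using OnePoint.rec with
  | infty =>
    show Tendsto _ (𝓝 (t, ∞)) (𝓝 ∞)
    rw [OnePoint.hasBasis_nhds_infty.tendsto_right_iff]
    rintro C ⟨hC, hC'⟩
    obtain ⟨C', h1⟩ : ∃ C', C' = B '' (Set.univ ×ˢ C) := ⟨_, rfl⟩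
    have h2 : IsCompact C' := by
      rw [h1]
      exact (isCompact_univ.prod hC').image hB
    have h3 : IsOpen (((↑) '' C' : Set (OnePoint X))ᶜ) :=
      OnePoint.isOpen_compl_image_coe.2 ⟨hcl _ h2, h2⟩
    have h4 : ∀ᶠ q : unitInterval × OnePoint X in 𝓝 (t, ∞), 
        q.2 ∈ (((↑) '' C' : Set (OnePoint X))ᶜ) :=
      continuous_snd.continuousAt.eventually (h3.mem_nhds (by simp))
    filter_upwards [h4] with q hq
    obtain ⟨s, z⟩ := q
    induction z using OnePoint.rec with
    | infty => exact Or.inr rfl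
    | coe x =>
      refine Or.inl ⟨A (s, x), fun h5 => hq ⟨x, ?_, rfl⟩, rfl⟩
      rw [h1]
      exact ⟨(s, A (s, x)), ⟨trivial, h5⟩, h s x⟩
  | coe x =>
    have h1 : IsOpenEmbedding (Prod.map id ((↑) : X → OnePoint X) :
        unitInterval × X → unitInterval × OnePoint X) :=
      (IsOpenEmbedding.id).prodMap OnePoint.isOpenEmbedding_coe
    have h2 := h1.continuousAt_iff (x := (t, x)) (g := fun q : unitInterval × OnePoint X =>
      OnePoint.map (fun x => A (q.1, x)) q.2)
    refine h2.1 ?_
    exact (OnePoint.continuous_coe.comp hA).continuousAt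

variable (n : ℕ)

/-- `R (s, w) = (w, (-1)ⁿ s)` -/
noncomputable def shR : (Fin (n + 1) → ℝ) →L[ℝ] (Fin (n + 1) → ℝ) :=
  LinearMap.toContinuousLinearMap
    { toFun := fun v => Fin.snoc (fun j : Fin n => v j.succ) ((-1) ^ n * v 0)
      map_add' := fun v w => by
        funext j
        refine Fin.lastCases ?_ (fun j => ?_) j
        · simp [mul_add]
        · simp
      map_smul' := fun a v => by
        funext j
        refine Fin.lastCases ?_ (fun j => ?_) j
        · simp
          ring
        · simp }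

theorem shR_apply (v : Fin (n + 1) → ℝ) :
    shR n v = Fin.snoc (fun j : Fin n => v j.succ) ((-1) ^ n * v 0) := rfl

/-- the straight line from the identity to `R` -/
noncomputable def shA (t : unitInterval) : (Fin (n + 1) → ℝ) →L[ℝ] (Fin (n + 1) → ℝ) :=
  (1 - (t : ℝ)) • (1 : (Fin (n + 1) → ℝ) →L[ℝ] (Fin (n + 1) → ℝ)) + (t : ℝ) • shR n

theorem shA_apply (t : unitInterval) (v : Fin (n + 1) → ℝ) :
    shA n t v = (1 - (t : ℝ)) • v + (t : ℝ) • shR n v := rfl

theorem shA_zero : shA n 0 = 1 := by
  ext v : 1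
  rw [shA_apply]
  simp

theorem shA_one : shA n 1 = shR n := by
  ext v : 1
  rw [shA_apply]
  simp

theorem continuous_shA : Continuous (shA n) := by
  unfold shA
  fun_prop

variable {n}

theorem shA_inj {t : unitInterval} {v : Fin (n + 1) → ℝ} (h : shA n t v = 0) : v = 0 := by
  have h1 : ∀ j : Fin n, (1 - (t : ℝ)) * v j.castSucc + t * v j.succ = 0 := fun j => by
    have h2 := congrFun h j.castSucc
    rw [shA_apply, shR_apply] at h2
    simpa using h2
  have h3 : (1 - (t : ℝ)) * v (Fin.last n) + t * ((-1) ^ n * v 0) = 0 := by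
    have h2 := congrFun h (Fin.last n)
    rw [shA_apply, shR_apply] at h2
    simpa using h2
  have ht0 : 0 ≤ (t : ℝ) := t.2.1
  have ht1 : (t : ℝ) ≤ 1 := t.2.2
  -- `tʲ vⱼ = (-(1 - t))ʲ v₀`
  have h4 : ∀ j : Fin (n + 1), (t : ℝ) ^ (j : ℕ) * v j = (-(1 - (t : ℝ))) ^ (j : ℕ) * v 0 := by
    intro j
    induction j using Fin.induction with
    | zero => simp
    | succ j ih =>
      have h5 := h1 j
      simp only [Fin.val_succ, pow_succ, Fin.val_castSucc] at ih ⊢
      linear_combination (-(1 - (t : ℝ))) * ih + (t : ℝ) ^ (j : ℕ) * h5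
  have h6 : v 0 = 0 := by
    have h7 := h4 (Fin.last n)
    simp only [Fin.val_last] at h7
    have h8 : ((1 - (t : ℝ)) * (1 - (t : ℝ)) ^ n + (t : ℝ) ^ n * t) * v 0 = 0 := by
      have h9 : ((-1 : ℝ) ^ n) * ((-1 : ℝ) ^ n) = 1 := by
        rw [← mul_pow]
        norm_num
      have h10 : (-(1 - (t : ℝ))) ^ n = (-1) ^ n * (1 - (t : ℝ)) ^ n := by
        rw [← mul_pow]
        ring
      rw [h10] at h7
      linear_combination ((-1) ^ n * (t : ℝ) ^ n) * h3 - (-1) ^ n * (1 - (t : ℝ)) * h7 +
        (- (1 - (t : ℝ)) * (1 - (t : ℝ)) ^ n * v 0 - (t : ℝ) ^ n * t * v 0) * h9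
    have h11 : 0 < (1 - (t : ℝ)) * (1 - (t : ℝ)) ^ n + (t : ℝ) ^ n * t := by
      rcases eq_or_lt_of_le ht0 with h12 | h12
      · rw [← h12]
        simp
      · have h13 : 0 < (t : ℝ) ^ n * t := by positivity
        have h14 : 0 ≤ (1 - (t : ℝ)) * (1 - (t : ℝ)) ^ n := by
          have : 0 ≤ 1 - (t : ℝ) := by linarith
          positivity
        linarith
    exact (mul_eq_zero.1 h8).resolve_left h11.ne'
  rcases eq_or_lt_of_le ht0 with h12 | h12
  · funext j
    refine Fin.lastCases ?_ (fun j => ?_) j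
    · rw [← h12] at h3
      simpa using h3
    · have := h1 j
      rw [← h12] at this
      simpa using this
  · funext j
    have h13 := h4 j
    rw [h6, mul_zero] at h13
    exact (mul_eq_zero.1 h13).resolve_left (by positivity)

theorem shA_unit (t : unitInterval) : IsUnit (shA n t) := by
  rw [ContinuousLinearMap.isUnit_iff_bijective]
  have h1 : Function.Injective (shA n t).toLinearMap := by
    rw [injective_iff_map_eq_zero]
    exact fun v hv => shA_inj hv
  exact ⟨h1, LinearMap.injective_iff_surjective.1 h1⟩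

/-- the inverse -/
noncomputable def shB (n : ℕ) (t : unitInterval) :
    (Fin (n + 1) → ℝ) →L[ℝ] (Fin (n + 1) → ℝ) := Ring.inverse (shA n t)

theorem continuous_shB : Continuous (shB n) := by
  rw [continuous_iff_continuousAt]
  intro t
  obtain ⟨u, hu⟩ := shA_unit (n := n) t
  have h1 := NormedRing.inverse_continuousAt u
  rw [hu] at h1
  exact h1.comp (continuous_shA n).continuousAt

theorem shB_shA (t : unitInterval) (v : Fin (n + 1) → ℝ) : shB n t (shA n t v) = v := by
  have h := Ring.inverse_mul_cancel _ (shA_unit (n := n) t)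
  exact DFunLike.congr_fun h v

theorem shA_shB (t : unitInterval) (v : Fin (n + 1) → ℝ) : shA n t (shB n t v) = v := by
  have h := Ring.mul_inverse_cancel _ (shA_unit (n := n) t)
  exact DFunLike.congr_fun h v

theorem shB_zero (v : Fin (n + 1) → ℝ) : shB n 0 v = v := by
  have h := shB_shA (n := n) 0 v
  rwa [shA_zero] at h

theorem shB_one (w : Fin n → ℝ) (s : ℝ) :
    shB n 1 (Fin.snoc w ((-1) ^ n * s) : Fin (n + 1) → ℝ) = Fin.cons s w := by
  have h := shB_shA (n := n) 1 (Fin.cons s w)
  rw [shA_one, shR_apply] at h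
  simpa using h

end Vale.Agent.P263.FR
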