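import Vale.Agent.P263.FR.H378.Sus1
import Vale.Agent.P263.FR.H663.Uct

/-!
# P263, V5: the quadratic form depends only on the stable homotopy class

* `Phi_stab` : if the `k`-fold suspensions of `c` and `c'` are homotopic, then `Phi c = Phi c'`.
* `Phi_stHtpc` : the form with the literal `StHtpc`.
* `Phi_of_phiZero` : `PhiZero c x` implies `Phi c x = 0`.
-/

open Finset OnePoint Topology CategoryTheory
open Vale.Agent.P251.G (LC)

namespace Vale.Agent.P263.FR

open Vale.Agent.P263.S hiding sn sn_add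
open Vale.Agent.P263.E Vale.Agent.P263.H83 Vale.Agent.P263.G2 Vale.Agent.P263.TJ
open Vale.Agent.P263.T0 CupC

variable {P : Type} [TopologicalSpace P] {d i q K m n k : ℕ}

theorem susF_succ (a : Sph m → TT n P) (z : Sph (m + k + 1)) :
    (susF (k + 1) a : Sph (m + (k + 1)) → TT (n + (k + 1)) P) z =
      (susF (m := m + k) (n := n + k) 1 (susF k a)) z := by
  induction z using OnePoint.rec with
  | infty => rfl
  | coe v =>
    refine (susF_coe (k := k + 1) a v).trans ?_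
    refine Eq.trans ?_ (susF_coe (m := m + k) (n := n + k) (k := 1) (susF k a) v).symm
    rw [susF_coe a]
    obtain ⟨z, hz⟩ : ∃ z, z = a ((fun i => v (Fin.castAdd 1 (Fin.castAdd k i)) : Fin m → ℝ) :
      Sph m) := ⟨_, rfl⟩
    have h1 : a ((fun i => v (Fin.castAdd (k + 1) i) : Fin m → ℝ) : Sph m) = z := by
      rw [hz]
      rfl
    rw [h1, ← hz]
    induction z using OnePoint.rec with
    | infty => rfl
    | coe p =>
      show ((Fin.append p.1 fun i => v (Fin.natAdd m i), p.2) : (Fin (n + (k + 1)) → ℝ) × P) =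
        (((Fin.append (Fin.append p.1 fun i => v (Fin.castAdd 1 (Fin.natAdd m i)))
          (fun i => v (Fin.natAdd (m + k) i)) : Fin (n + k + 1) → ℝ), p.2) :
            TT (n + k + 1) P)
      congr 2
      funext j
      refine Fin.addCases (fun j => ?_) (fun j => ?_) j
      · rw [Fin.append_left]
        have h2 : (Fin.castAdd (k + 1) j : Fin (n + (k + 1))) = Fin.castAdd 1 (Fin.castAdd k j) :=
          rfl
        rw [h2, Fin.append_left, Fin.append_left]
      · rw [Fin.append_right]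
        refine Fin.lastCases ?_ (fun j => ?_) j
        · have h2 : (Fin.natAdd n (Fin.last k) : Fin (n + (k + 1))) =
            Fin.natAdd (n + k) (0 : Fin 1) := rfl
          rw [h2, Fin.append_right]
          rfl
        · have h2 : (Fin.natAdd n (Fin.castSucc j) : Fin (n + (k + 1))) =
            Fin.castAdd 1 (Fin.natAdd n j) := rfl
          rw [h2, Fin.append_left, Fin.append_right]
          rfl

theorem susF_zero {a : Sph m → TT n P} (ha : a ∞ = ∞) (z : Sph m) :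
    (susF 0 a : Sph (m + 0) → TT (n + 0) P) z = a z := by
  induction z using OnePoint.rec with
  | infty => exact ha.symm
  | coe v =>
    refine (susF_coe (k := 0) a v).trans ?_
    obtain ⟨z, hz⟩ : ∃ z, z = a (v : Sph m) := ⟨_, rfl⟩
    have h1 : a ((fun i => v (Fin.castAdd 0 i) : Fin m → ℝ) : Sph m) = z := hz.symm
    rw [h1, ← hz]
    induction z using OnePoint.rec with
    | infty => rfl
    | coe p =>
      show (((Fin.append p.1 fun i => v (Fin.natAdd m i) : Fin (n + 0) → ℝ), p.2) :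
        TT (n + 0) P) = ((p.1, p.2) : (Fin n → ℝ) × P)
      congr 2
      funext j
      exact Fin.append_left p.1 _ j

variable [CompactSpace P] [T2Space P]

/-- `c : S^(d+K) → (ℝᴷ × P)⁺`, up to equality of the dimensions, has the value `v` -/
def HasPhi (d : ℕ) {q : ℕ} {x : Cc (sing P)} (hq : Cc.IsDeg q x) (hx : Cc.d x = 0) {m n : ℕ}
    (c : C(Sph m, TT n P)) (v : ZMod 2) : Prop :=
  ∃ (i : ℕ) (_ : m = d + (i + 1)) (_ : n = i + 1) (c' : C(Sph (d + (i + 1)), TT (i + 1) P))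
    (hc' : c' ∞ = ∞), HEq c c' ∧ Phi c' hc' hq hx = v

theorem HasPhi.unique {x : Cc (sing P)} {hq : Cc.IsDeg q x} {hx : Cc.d x = 0}
    {c : C(Sph m, TT n P)} {v w : ZMod 2} (h : HasPhi d hq hx c v) (h' : HasPhi d hq hx c w) :
    v = w := by
  obtain ⟨i, rfl, rfl, c1, hc1, e1, h1⟩ := h
  obtain ⟨j, hj, hj', c2, hc2, e2, h2⟩ := h'
  obtain rfl : j = i := by omega
  cases e1
  cases e2
  exact h1.symm.trans h2

theorem hasPhi_self {x : Cc (sing P)} {hq : Cc.IsDeg q x} {hx : Cc.d x = 0}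
    {c : C(Sph (d + (i + 1)), TT (i + 1) P)} (hc : c ∞ = ∞) :
    HasPhi d hq hx c (Phi c hc hq hx) := ⟨i, rfl, rfl, c, hc, HEq.rfl, rfl⟩

theorem HasPhi.sus {x : Cc (sing P)} {hq : Cc.IsDeg q x} {hx : Cc.d x = 0} (hd : 0 < d)
    {c : C(Sph m, TT n P)} (hc : c ∞ = ∞) {v : ZMod 2} (h : HasPhi d hq hx c v) :
    HasPhi d hq hx (susC 1 c hc) v := by
  obtain ⟨i, rfl, rfl, c1, hc1, e1, h1⟩ := h
  cases e1
  exact ⟨i + 1, rfl, rfl, susC 1 c hc, susC_infty c hc, HEq.rfl, (Phi_sus1 hd hq hx).trans h1⟩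

theorem HasPhi.susK {x : Cc (sing P)} {hq : Cc.IsDeg q x} {hx : Cc.d x = 0} (hd : 0 < d)
    {c : C(Sph m, TT n P)} (hc : c ∞ = ∞) {v : ZMod 2} (h : HasPhi d hq hx c v) (k : ℕ) :
    HasPhi d hq hx (susC k c hc) v := by
  induction k with
  | zero =>
    have e : (susC 0 c hc : C(Sph (m + 0), TT (n + 0) P)) = c := by
      apply ContinuousMap.ext
      intro z
      exact susF_zero hc z
    rw [e]
    exact h
  | succ k ih =>
    have e : (susC (k + 1) c hc : C(Sph (m + (k + 1)), TT (n + (k + 1)) P)) =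
        susC (m := m + k) (n := n + k) 1 (susC k c hc) (susC_infty c hc) := by
      apply ContinuousMap.ext
      intro z
      exact susF_succ c z
    rw [e]
    exact ih.sus hd _

theorem HasPhi.htpy {x : Cc (sing P)} {hq : Cc.IsDeg q x} {hx : Cc.d x = 0} (hd : 0 < d)
    {c c' : C(Sph m, TT n P)} {v : ZMod 2} (h : HasPhi d hq hx c v)
    (hc' : c' ∞ = ∞) (hh : c.HomotopicRel c' {∞}) : HasPhi d hq hx c' v := by
  obtain ⟨i, rfl, rfl, c1, hc1, e1, h1⟩ := h
  cases e1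
  exact ⟨i, rfl, rfl, c', hc', HEq.rfl,
    (Phi_htpy (hc := hc1) (hc' := hc') hd hh hq hx).symm.trans h1⟩

/-- **The form depends only on the stable homotopy class.** -/
theorem Phi_stab (hd : 0 < d) {c c' : C(Sph (d + (i + 1)), TT (i + 1) P)} (hc : c ∞ = ∞)
    (hc' : c' ∞ = ∞) (k : ℕ) (h : (susC k c hc).HomotopicRel (susC k c' hc') {∞})
    {x : Cc (sing P)} (hq : Cc.IsDeg q x) (hx : Cc.d x = 0) :
    Phi c hc hq hx = Phi c' hc' hq hx :=
  (((hasPhi_self hc).susK hd hc k).htpy hd (susC_infty c' hc') h).unique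
    ((hasPhi_self hc').susK hd hc' k)

/-- the form with the literal `StHtpc` -/
theorem Phi_stHtpc {Y : TopCat.{0}} [CompactSpace Y] [T2Space Y] (hd : 0 < d)
    {c c' : C(Sph (d + (i + 1)), TT (i + 1) Y)} (hc : c ∞ = ∞)
    (hc' : c' ∞ = ∞) (h : StHtpc (m := d + (i + 1)) (n := i + 1) (X := Y) c c')
    {x : Cc (sing Y)} (hq : Cc.IsDeg q x) (hx : Cc.d x = 0) :
    Phi c hc hq hx = Phi c' hc' hq hx := by
  obtain ⟨k, G, h0, h1, h2⟩ := h
  refine Phi_stab hd hc hc' k ⟨⟨⟨G, fun z => h0 z, fun z => h1 z⟩, fun t z hz => ?_⟩⟩ hq hx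
  rw [Set.mem_singleton_iff.1 hz]
  exact h2 t

/-- the value at zero -/
theorem Phi_null (hq0 : 0 < q) (hqd : q < d) {c : C(Sph (d + (i + 1)), TT (i + 1) P)}
    (hc : c ∞ = ∞) {x : Cc (sing P)} (hx : Cc.IsDeg q x) (dx : Cc.d x = 0)
    (h : (Cc.cupC (sing P)).Coh x 0) : Phi c hc hx dx = 0 := by
  have hd : 0 < d := by omega
  have h0 : Cc.IsDeg q (0 : Cc (sing P)) := fun _ _ _ => rfl
  have h1 : Phi c hc hx dx = Phi c hc h0 d_zero := Phi_coh hd hx dx h0 d_zero h
  have h2 : Cc.IsDeg q ((0 : Cc (sing P)) + 0) := fun _ _ _ => by simp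
  have h3 : Cc.d ((0 : Cc (sing P)) + 0) = 0 := by rw [add_zero, d_zero]
  have h4 : Cc.IsDeg 0 (Cc.cup 1 (0 : Cc (sing P)) 0) := fun _ _ _ => by
    rw [cup_zero_left]
    rfl
  have h5 : Cc.d (Cc.cup 1 (0 : Cc (sing P)) 0) = 0 := by rw [cup_zero_left, d_zero]
  have h6 := Phi_add (c := c) (hc := hc) hq0 hqd h0 d_zero h0 d_zero h2 h3 h4 h5
  have h7 : Int c h4 h5 = 0 := Int_null hd hc _ _ (by rw [cup_zero_left]; exact Coh.refl _)
  have h8 : Phi c hc h2 h3 = Phi c hc h0 d_zero :=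
    Phi_coh hd _ _ _ _ (by rw [add_zero]; exact Coh.refl _)
  rw [h7, h8, add_zero] at h6
  rw [h1]
  exact left_eq_add.1 h6

/-- **`PhiZero c x` implies `Phi c x = 0`.** -/
theorem Phi_of_phiZero {N : Type} [TopologicalSpace N] [CompactSpace N] [T2Space N]
    (hq0 : 0 < q) (hqd : q < d) {c : ST.Sph (d + (i + 1)) ⟶ Th (i + 1) (TopCat.of N)}
    {cN : C(Sph (d + (i + 1)), TT (i + 1) N)} (hcN : cN ∞ = ∞) (he : ∀ z, c z = cN z)
    {x : Coh q (TopCat.of N)} (h : PhiZero c x) {v : Cc (sing N)} (hv : Cc.IsDeg q v)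
    (dv : Cc.d v = 0) (hx : cl (X := TopCat.of N) q v dv = x) : Phi cN hcN hv dv = 0 := by
  have hd : 0 < d := by omega
  obtain ⟨Y, f, y, y₀, hY1, hY2, h3, h4⟩ := h
  obtain ⟨u, hu, hqu, rfl⟩ := exists_cl y
  obtain ⟨g, hg⟩ : ∃ g : C(N, Y), g = f.hom := ⟨_, rfl⟩
  have du : Cc.d (Cc.pull (singMap g) u) = 0 := by rw [← pull_d, hu, pull_zero]
  have hqu' : Cc.IsDeg q (Cc.pull (singMap g) u) := hqu.pull _
  have h5 : cl (X := TopCat.of N) q (Cc.pull (singMap g) u) du = x := by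
    rw [← h3]
    subst hg
    exact (pull_cl f u hu du).symm
  have h6 : (Cc.cupC (sing N)).Coh v (Cc.pull (singMap g) u) :=
    (cl_eq_iff (X := TopCat.of N) dv du hv hqu').1 (hx.trans h5.symm)
  have hg1 : ((thm (K := i + 1) g).comp cN) ∞ = ∞ := by
    show thm g (cN ∞) = ∞
    rw [hcN]
    rfl
  obtain ⟨g', hg'⟩ : ∃ g' : C(N, Y), g' = ContinuousMap.const N y₀ := ⟨_, rfl⟩
  have hg2 : ((thm (K := i + 1) g').comp cN) ∞ = ∞ := by
    show thm g' (cN ∞) = ∞
    rw [hcN]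
    rfl
  have du' : Cc.d (Cc.pull (singMap g') u) = 0 := by rw [← pull_d, hu, pull_zero]
  have hqu'' : Cc.IsDeg q (Cc.pull (singMap g') u) := hqu.pull _
  have h7 : Phi ((thm g).comp cN) hg1 hqu hu = Phi ((thm g').comp cN) hg2 hqu hu := by
    refine Phi_stHtpc hd hg1 hg2 ?_ hqu hu
    have e1 : (fun z => Th.fmap f (c z)) =
        ((thm g).comp cN : C(Sph (d + (i + 1)), TT (i + 1) Y)) := by
      funext z
      rw [he, hg]
      exact (thm_eq (K := i + 1) (M := N) (P := Y) f.hom (cN z)).symm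
    have e2 : (fun z => Th.fmap (fun _ => y₀) (c z)) =
        ((thm g').comp cN : C(Sph (d + (i + 1)), TT (i + 1) Y)) := by
      funext z
      rw [he, hg']
      exact (thm_eq (K := i + 1) (M := N) (P := Y) (ContinuousMap.const N y₀) (cN z)).symm
    rw [← e1, ← e2]
    exact h4
  rw [Phi_coh hd hv dv hqu' du h6, ← Phi_nat g hd hqu hu (hLc := hg1) hqu' du, h7,
    Phi_nat g' hd hqu hu (hLc := hg2) hqu'' du']
  refine Phi_null hq0 hqd hcN _ _ ?_
  rw [hg']
  exact pull_const_null hq0 hqu hu y₀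

end Vale.Agent.P263.FR
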