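import Vale.Agent.P263.FR.H378.Path
import Vale.Agent.P263.FR.PhiB

/-!
# P263, V5: suspension invariance of the quadratic form, last coordinate

* `snocT z s` : `(ℝⁿ × P)⁺ ∧ Sᵏ → (ℝ^(n+k) × P)⁺`.
* `susT_join2`, `continuous_susT`, `susC k c` : the suspension `susT k c` as a continuous map.
* `Phi_sus1` : the quadratic form of `susT 1 c` is the one of `c`.
-/

open Finset OnePoint Topology
open Vale.Agent.P251.G (LC)

namespace Vale.Agent.P263.FR

open Vale.Agent.P263.S hiding sn sn_add
open Vale.Agent.P263.E Vale.Agent.P263.H83 Vale.Agent.P263.G2 Vale.Agent.P263.TJ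
open Vale.Agent.P263.T0 CupC

variable {P : Type} [TopologicalSpace P] {d i q K m n k : ℕ}

/-- `(ℝⁿ × P) × ℝᵏ = ℝ^(n+k) × P` -/
def snocHT (n k : ℕ) (P : Type) [TopologicalSpace P] :
    ((Fin n → ℝ) × P) × (Fin k → ℝ) ≃ₜ (Fin (n + k) → ℝ) × P where
  toFun q := (Fin.append q.1.1 q.2, q.1.2)
  invFun r := ((fun i => r.1 (Fin.castAdd k i), r.2), fun j => r.1 (Fin.natAdd n j))
  left_inv q := by simp
  right_inv r := by
    refine Prod.ext ?_ rfl
    exact Fin.append_castAdd_natAdd
  continuous_toFun := by
    refine Continuous.prodMk ?_ (continuous_snd.comp continuous_fst)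
    exact (Fin.appendHomeomorph (X := ℝ) n k).continuous.comp
      ((continuous_fst.comp continuous_fst).prodMk continuous_snd)
  continuous_invFun := by fun_prop

/-- `(ℝⁿ × P)⁺ ∧ Sᵏ → (ℝ^(n+k) × P)⁺` -/
noncomputable def snocT (z : TT n P) (s : Sph k) : TT (n + k) P :=
  (snocHT n k P).onePointCongr (LC.smash z s)

theorem snocT_coe (e : (Fin n → ℝ) × P) (s : Fin k → ℝ) :
    snocT (e : TT n P) (s : Sph k) = ((Fin.append e.1 s, e.2) : (Fin (n + k) → ℝ) × P) := rfl

theorem snocT_infty_left (s : Sph k) : snocT (∞ : TT n P) s = ∞ := by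
  rw [snocT, LC.smash_infty_left]
  rfl

theorem snocT_infty_right (z : TT n P) : snocT z (∞ : Sph k) = ∞ := by
  rw [snocT, LC.smash_infty_right]
  rfl

theorem continuous_snocT [CompactSpace P] [T2Space P] :
    Continuous fun z : TT n P × Sph k => snocT z.1 z.2 :=
  (Homeomorph.continuous _).comp LC.continuous_smash

/-- `susT` -/
noncomputable def susF (k : ℕ) (a : Sph m → TT n P) : Sph (m + k) → TT (n + k) P :=
  susT (X := TopCat.of P) k a

theorem susF_coe (a : Sph m → TT n P) (v : Fin (m + k) → ℝ) : susF k a (v : Sph (m + k)) =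
    OnePoint.elim (a ((fun i => v (Fin.castAdd k i) : Fin m → ℝ) : Sph m)) ∞
      (fun p : (Fin n → ℝ) × P => ((Fin.append p.1 fun i => v (Fin.natAdd m i), p.2) :
          TT (n + k) P)) := rfl

theorem susF_infty (a : Sph m → TT n P) : susF k a ∞ = ∞ := rfl

theorem susF_join2 {a : Sph m → TT n P} (ha : a ∞ = ∞) (x : Sph m) (y : Sph k) :
    susF k a (join2 x y) = snocT (a x) y := by
  induction x using OnePoint.rec with
  | infty => rw [join2_infty_left, ha, snocT_infty_left]; rfl
  | coe x =>
    induction y using OnePoint.rec with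
    | infty => rw [join2_infty_right, snocT_infty_right]; rfl
    | coe y =>
      rw [join2_coe, susF_coe]
      have h1 : (fun i => Fin.append x y (Fin.castAdd k i)) = x := by
        funext i
        simp
      have h2 : (fun i => Fin.append x y (Fin.natAdd m i)) = y := by
        funext i
        simp
      rw [h1, h2]
      obtain ⟨z, hz⟩ : ∃ z, z = a x := ⟨_, rfl⟩
      rw [← hz]
      induction z using OnePoint.rec with
      | infty => rw [snocT_infty_left]; rfl
      | coe e => rfl

theorem isQuotientMap_join2 : IsQuotientMap fun z : Sph m × Sph k => join2 z.1 z.2 := by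
  refine (continuous_join2.isClosedMap).isQuotientMap continuous_join2 fun z => ?_
  induction z using OnePoint.rec with
  | infty => exact ⟨(∞, ∞), join2_infty_left _⟩
  | coe z =>
    refine ⟨(((fun i => z (Fin.castAdd k i) : Fin m → ℝ) : Sph m),
      ((fun i => z (Fin.natAdd m i) : Fin k → ℝ) : Sph k)), ?_⟩
    show join2 _ _ = _
    rw [join2_coe, Fin.append_castAdd_natAdd]

section

variable [CompactSpace P] [T2Space P]

theorem continuous_susF {a : Sph m → TT n P} (ha : a ∞ = ∞) (hc : Continuous a) :
    Continuous (susF k a) := by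
  rw [isQuotientMap_join2.continuous_iff]
  have h1 : susF k a ∘ (fun z : Sph m × Sph k => join2 z.1 z.2) = fun z => snocT (a z.1) z.2 :=
    funext fun z => susF_join2 ha z.1 z.2
  rw [h1]
  exact continuous_snocT.comp ((hc.comp continuous_fst).prodMk continuous_snd)

/-- the suspension as a continuous map -/
noncomputable def susC (k : ℕ) (c : C(Sph m, TT n P)) (hc : c ∞ = ∞) :
    C(Sph (m + k), TT (n + k) P) :=
  ⟨susF k c, continuous_susF hc c.continuous⟩

theorem susC_join2 (c : C(Sph m, TT n P)) (hc : c ∞ = ∞) (x : Sph m) (y : Sph k) :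
    susC k c hc (join2 x y) = snocT (c x) y := susF_join2 hc x y

theorem susC_infty (c : C(Sph m, TT n P)) (hc : c ∞ = ∞) : susC k c hc ∞ = ∞ := rfl

/-! ### the homotopy -/

/-- the action of `shA` on the last `n + 1` coordinates -/
noncomputable def actA (d n : ℕ) (q : unitInterval × (Fin (d + (n + 1)) → ℝ)) :
    Fin (d + (n + 1)) → ℝ :=
  Fin.append (fun i => q.2 (Fin.castAdd (n + 1) i)) (shA n q.1 fun j => q.2 (Fin.natAdd d j))

/-- the inverse of `actA` -/
noncomputable def actA' (d n : ℕ) (q : unitInterval × (Fin (d + (n + 1)) → ℝ)) :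
    Fin (d + (n + 1)) → ℝ :=
  Fin.append (fun i => q.2 (Fin.castAdd (n + 1) i)) (shB n q.1 fun j => q.2 (Fin.natAdd d j))

theorem continuous_actA : Continuous (actA d n) := by
  have h1 : Continuous fun q : unitInterval × (Fin (d + (n + 1)) → ℝ) =>
    fun j : Fin (n + 1) => q.2 (Fin.natAdd d j) := by fun_prop
  have h2 : Continuous fun q : unitInterval × (Fin (d + (n + 1)) → ℝ) =>
    fun j : Fin d => q.2 (Fin.castAdd (n + 1) j) := by fun_prop
  exact (Fin.appendHomeomorph (X := ℝ) d (n + 1)).continuous.comp
    (h2.prodMk (((continuous_shA n).comp continuous_fst).clm_apply h1))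

theorem continuous_actA' : Continuous (actA' d n) := by
  have h1 : Continuous fun q : unitInterval × (Fin (d + (n + 1)) → ℝ) =>
    fun j : Fin (n + 1) => q.2 (Fin.natAdd d j) := by fun_prop
  have h2 : Continuous fun q : unitInterval × (Fin (d + (n + 1)) → ℝ) =>
    fun j : Fin d => q.2 (Fin.castAdd (n + 1) j) := by fun_prop
  exact (Fin.appendHomeomorph (X := ℝ) d (n + 1)).continuous.comp
    (h2.prodMk (((continuous_shB (n := n)).comp continuous_fst).clm_apply h1))

theorem actA'_actA (t : unitInterval) (v : Fin (d + (n + 1)) → ℝ) :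
    actA' d n (t, actA d n (t, v)) = v := by
  rw [actA', actA]
  simp only [Fin.append_left, Fin.append_right, shB_shA]
  exact Fin.append_castAdd_natAdd

/-- the source -/
noncomputable def famS (d n : ℕ) : C(unitInterval × Sph (d + (n + 1)), Sph (d + (n + 1))) :=
  ⟨fun q => OnePoint.map (fun x => actA d n (q.1, x)) q.2,
    continuous_fam continuous_actA continuous_actA' (fun _ h => h.isClosed) actA'_actA⟩

/-- the target -/
noncomputable def famT (n : ℕ) (P : Type) [TopologicalSpace P] [CompactSpace P] [T2Space P] :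
    C(unitInterval × TT (n + 1) P, TT (n + 1) P) :=
  ⟨fun q => OnePoint.map (fun x : (Fin (n + 1) → ℝ) × P => (shB n q.1 x.1, x.2)) q.2,
    continuous_fam (A := fun q => (shB n q.1 q.2.1, q.2.2)) (B := fun q => (shA n q.1 q.2.1, q.2.2))
      (by
        refine Continuous.prodMk ?_ (by fun_prop)
        exact ((continuous_shB (n := n)).comp continuous_fst).clm_apply (by fun_prop :
          Continuous fun q : unitInterval × ((Fin (n + 1) → ℝ) × P) => q.2.1))
      (by
        refine Continuous.prodMk ?_ (by fun_prop)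
        exact ((continuous_shA n).comp continuous_fst).clm_apply (by fun_prop :
          Continuous fun q : unitInterval × ((Fin (n + 1) → ℝ) × P) => q.2.1))
      (fun _ h => h.isClosed) fun t x => by
        refine Prod.ext ?_ rfl
        exact shA_shB t x.1⟩

/-- the homotopy -/
noncomputable def rotH (c : C(Sph (d + (n + 1)), TT (n + 1) P)) :
    C(unitInterval × Sph (d + (n + 1)), TT (n + 1) P) :=
  (famT n P).comp ((ContinuousMap.fst).prodMk (c.comp (famS d n)))

theorem rotH_apply (c : C(Sph (d + (n + 1)), TT (n + 1) P)) (t : unitInterval)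
    (z : Sph (d + (n + 1))) : rotH c (t, z) = famT n P (t, c (famS d n (t, z))) := rfl

theorem rotH_infty {c : C(Sph (d + (n + 1)), TT (n + 1) P)} (hc : c ∞ = ∞) (t : unitInterval) :
    rotH c (t, ∞) = ∞ := by
  rw [rotH_apply]
  show famT n P (t, c ∞) = ∞
  rw [hc]
  rfl

theorem famS_zero (z : Sph (d + (n + 1))) : famS d n (0, z) = z := by
  induction z using OnePoint.rec with
  | infty => rfl
  | coe v =>
    show ((actA d n (0, v) : Fin (d + (n + 1)) → ℝ) : Sph (d + (n + 1))) = _
    congr 1
    rw [actA, shA_zero]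
    exact Fin.append_castAdd_natAdd

theorem famT_zero (z : TT (n + 1) P) : famT n P (0, z) = z := by
  induction z using OnePoint.rec with
  | infty => rfl
  | coe v =>
    show (((shB n 0 v.1, v.2) : (Fin (n + 1) → ℝ) × P) : TT (n + 1) P) = _
    rw [shB_zero]

theorem rotH_zero (c : C(Sph (d + (n + 1)), TT (n + 1) P)) (z : Sph (d + (n + 1))) :
    rotH c (0, z) = c z := by
  rw [rotH_apply, famS_zero, famT_zero]

/-- at the end of the homotopy the suspension coordinate is the first one -/
theorem rotH_one {c : C(Sph (d + n), TT n P)} (hc : c ∞ = ∞)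
    {c1 : C(Sph (d + (n + 1)), TT (n + 1) P)} (hc1 : c1 ∞ = ∞)
    (hs : ∀ (x : Sph (d + n)) (y : Sph 1), c1 (join2 (d := d + n) (r := 1) x y) = snocT (c x) y)
    (y : Sph d)
    (s : OnePoint ℝ) (w : Sph n) :
    rotH c1 (1, join2 y (consS s w)) = consT s (c (join2 y w)) := by
  have hinf : rotH c1 (1, ∞) = ∞ := rotH_infty hc1 1
  induction y using OnePoint.rec with
  | infty => rw [join2_infty_left, join2_infty_left, hc, consT_infty_right, hinf]
  | coe y =>
    induction s using OnePoint.rec with
    | infty => rw [consS_infty_left, join2_infty_right, consT_infty_left, hinf]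
    | coe s =>
      induction w using OnePoint.rec with
      | infty => rw [consS_infty_right, join2_infty_right, join2_infty_right, hc,
          consT_infty_right, hinf]
      | coe w =>
        rw [consS_coe, join2_coe, join2_coe, rotH_apply]
        have h1 : famS d n (1, ((Fin.append y (Fin.cons s w : Fin (n + 1) → ℝ) :
            Fin (d + (n + 1)) → ℝ) : Sph (d + (n + 1)))) =
            join2 (join2 (y : Sph d) (w : Sph n)) (((fun _ => (-1) ^ n * s : Fin 1 → ℝ)) : Sph 1) := by
          rw [join2_coe, join2_coe]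
          show ((actA d n (1, Fin.append y (Fin.cons s w)) : Fin (d + (n + 1)) → ℝ) :
            Sph (d + (n + 1))) = _
          congr 1
          rw [actA, shA_one, shR_apply]
          funext j
          refine Fin.addCases (fun j => ?_) (fun j => ?_) j
          · simp only [Fin.append_left]
            have h2 : (Fin.castAdd (n + 1) j : Fin (d + (n + 1))) =
              Fin.castAdd 1 (Fin.castAdd n j) := rfl
            rw [h2, Fin.append_left, Fin.append_left]
          · refine Fin.lastCases ?_ (fun j => ?_) j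
            · simp only [Fin.append_right, Fin.snoc_last, Fin.cons_zero]
              have h2 : (Fin.natAdd d (Fin.last n) : Fin (d + (n + 1))) =
                Fin.natAdd (d + n) (0 : Fin 1) := rfl
              rw [h2, Fin.append_right]
            · simp only [Fin.append_right, Fin.snoc_castSucc, Fin.cons_succ]
              have h2 : (Fin.natAdd d (Fin.castSucc j) : Fin (d + (n + 1))) =
                Fin.castAdd 1 (Fin.natAdd d j) := rfl
              rw [h2, Fin.append_left, Fin.append_right]
        rw [h1]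
        have h3 := hs (join2 (y : Sph d) (w : Sph n))
          (((fun _ => (-1) ^ n * s : Fin 1 → ℝ)) : Sph 1)
        refine (congrArg (fun z => famT n P (1, z)) h3).trans ?_
        rw [join2_coe]
        obtain ⟨z, hz⟩ : ∃ z, z = c ((Fin.append y w : Fin (d + n) → ℝ) : Sph (d + n)) := ⟨_, rfl⟩
        rw [← hz]
        induction z using OnePoint.rec with
        | infty =>
          show famT n P (1, snocT ∞ _) = _
          rw [snocT_infty_left, consT_infty_right]
          rfl
        | coe e =>
          show (((shB n 1 (Fin.append e.1 (fun _ => (-1) ^ n * s : Fin 1 → ℝ)), e.2) :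
            (Fin (n + 1) → ℝ) × P) : TT (n + 1) P) = _
          rw [consT_coe, Fin.append_right_eq_snoc, shB_one]

/-- **Suspension invariance**, last coordinate. -/
theorem Phi_sus1 (hd : 0 < d) {c : C(Sph (d + (i + 1)), TT (i + 1) P)} {hc : c ∞ = ∞}
    {x : Cc (sing P)} (hq : Cc.IsDeg q x) (hx : Cc.d x = 0) :
    Phi (i := i + 1) (susC 1 c hc : C(Sph (d + (i + 1 + 1)), TT (i + 1 + 1) P))
      (susC_infty c hc) hq hx = Phi c hc hq hx := by
  obtain ⟨c1, h1⟩ : ∃ c1 : C(Sph (d + (i + 1 + 1)), TT (i + 1 + 1) P), c1 = susC 1 c hc := ⟨_, rfl⟩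
  have hc1 : c1 ∞ = ∞ := by rw [h1]; exact susC_infty c hc
  obtain ⟨c2, h2⟩ : ∃ c2 : C(Sph (d + (i + 1 + 1)), TT (i + 1 + 1) P), c2 =
    (rotH c1).comp ((ContinuousMap.const _ 1).prodMk (ContinuousMap.id _)) := ⟨_, rfl⟩
  have hc2 : c2 ∞ = ∞ := by rw [h2]; exact rotH_infty hc1 1
  have h3 : c1.HomotopicRel c2 {∞} := by
    refine ⟨⟨⟨rotH c1, fun z => rotH_zero c1 z, fun z => ?_⟩, fun t z hz => ?_⟩⟩
    · rw [h2]
      rfl
    · rw [Set.mem_singleton_iff.1 hz]
      show rotH c1 (t, ∞) = c1 ∞
      rw [rotH_infty hc1, hc1]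
  have h4 := Phi_htpy (hc := hc1) (hc' := hc2) hd h3 hq hx
  have h5 := Phi_sus0 (c := c) (hc := hc) (c2 := c2) (hc2 := hc2) hd (fun y s w => by
    rw [h2]
    exact rotH_one hc hc1 (fun x y => by rw [h1]; exact susC_join2 c hc x y) y s w) hq hx
  rw [← h5, ← h4]
  congr 1
  exact h1.symm

end

end Vale.Agent.P263.FR
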